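import Vale.Agent.P015.H97.SoftTau
import Vale.Agent.P015.R2.H116.Defs

/-! Soft level frequencies, part 2: a bounded weight on a curve-like set which correlates with
`1 - p q_p` for every prime `p` of a level (`q_p` a bounded law on the residue classes) has a large
Fourier coefficient at half of these primes. -/

namespace Vale.Agent.P015.H97

open Finset Vale.Agent.P001 Vale.Agent.P006.CLS Vale.Agent.P015.H222
open Vale.Agent.P015.R2.H116 (Cv)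
open scoped ComplexConjugate Pointwise

/-- transform of the law at a frequency -/
noncomputable def gq (q : ∀ p : ℕ, ZMod p → ℝ) (θ : Σ _ : ℕ, ℕ) : ℝ :=
  ‖tq (q θ.1) θ.2‖

theorem gq_nonneg (q : ∀ p : ℕ, ZMod p → ℝ) (θ : Σ _ : ℕ, ℕ) : 0 ≤ gq q θ := norm_nonneg _

theorem sum_gq_sq {X : ℝ} (hX0 : 0 < X) {r : ℕ → ℤ} {P : Finset ℕ} (hP : Rts r P) {Q : ℕ}
    (hQ : ∀ p ∈ P, p ≤ Q) (q : ∀ p : ℕ, ZMod p → ℝ)
    (hq2 : ∀ p ∈ P, ∑ c ∈ range p, (p : ℝ) * q p (c : ZMod p) ^ 2 ≤ X) :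
    ∑ θ ∈ R1 P, gq q θ ^ 2 ≤ X * Q := by
  rw [R1, Finset.sum_sigma]
  calc ∑ p ∈ P, ∑ a ∈ Icc 1 (p - 1), gq q ⟨p, a⟩ ^ 2 ≤ ∑ p ∈ P, X := by
        refine Finset.sum_le_sum (fun p hp => ?_)
        refine le_trans ?_ (hq2 p hp)
        rw [← tq_parseval (hP p hp).1.pos (q p)]
        apply Finset.sum_le_sum_of_subset_of_nonneg
        · intro a ha
          rw [Finset.mem_Icc] at ha
          rw [Finset.mem_range]
          have := (hP p hp).1.pos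
          omega
        · intro _ _ _; positivity
    _ = P.card * X := by rw [Finset.sum_const, nsmul_eq_mul]
    _ ≤ Q * X := by
        have : (P.card : ℝ) ≤ Q := by exact_mod_cast card_le_of_primes hP hQ
        gcongr
    _ = _ := by ring

/-- contribution of one cell -/
theorem one_cell {X : ℝ} (hX : 4 * C1 ≤ X) {r : ℕ → ℤ} {P : Finset ℕ} (hP : Rts r P) {Q : ℕ}
    (hQ : ∀ p ∈ P, p ≤ Q) (hQX : 4 * X ^ 26 ≤ Q)
    (q : ∀ p : ℕ, ZMod p → ℝ)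
    (hq2 : ∀ p ∈ P, ∑ c ∈ range p, (p : ℝ) * q p (c : ZMod p) ^ 2 ≤ X)
    {V U : Finset (ℤ × ℤ)} {n₀ : ℤ × ℤ} (hU : ∀ w ∈ U, w - n₀ ∈ box (2 * Q ^ 2))
    (hUc : (U.card : ℝ) ≤ 2 * X * (Q : ℝ) ^ 2) (hVc : (V.card : ℝ) ≤ 2 * X * (Q : ℝ) ^ 2)
    (dens : ∀ M : ℕ, 1 ≤ M → M ≤ Q → ∀ z,
      ((U.filter (fun w => w - z ∈ box M)).card : ℝ) ≤ X * M)
    (conn : ∀ M : ℕ, M ≤ Q → ∀ w ∈ V,
      (M : ℝ) ≤ X * ((U.filter (fun u => u - w ∈ box M)).card : ℝ))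
    (f : ℤ × ℤ → ℂ) (hf1 : ∀ w ∈ V, ‖f w‖ ≤ 1) :
    X ^ 4 * ∑ θ ∈ (R1 P).filter (fun θ => ¬ (1 : ℝ) ≤ X ^ 43 * gq q θ),
      gq q θ * ‖hh r V f θ‖ ≤ Q * V.card + (Q : ℝ) ^ 3 := by
  classical
  have hC1 := one_le_C1
  have hX0 : 0 < X := by linarith
  obtain ⟨h1, h2⟩ := lkl 9 hX hP hQ hQX hU hUc hVc dens conn f hf1
  rw [show 2 * 9 + 6 = 24 from rfl] at h1 h2
  rw [show 3 * 9 + 12 = 39 from rfl] at h1
  have hnV : ∀ θ, ‖hh r V f θ‖ ≤ V.card := by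
    intro θ
    rw [hh, hf]
    refine (norm_sum_le _ _).trans ?_
    calc ∑ w ∈ V, ‖f w * e2 (fx θ) (fy r θ) w‖ ≤ ∑ w ∈ V, (1 : ℝ) := by
          refine Finset.sum_le_sum (fun w hw => ?_)
          rw [norm_mul, norm_e2, mul_one]
          exact hf1 w hw
      _ = V.card := by simp
  rw [← Finset.sum_filter_add_sum_filter_not _
    (fun θ => (Q : ℝ) ^ 2 ≤ X ^ 24 * ‖hh r V f θ‖), mul_add]
  refine add_le_add ?_ ?_
  · refine one_cell_large hX0 (F := (R1 P).filter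
      (fun θ => (Q : ℝ) ^ 2 ≤ X ^ 24 * ‖hh r V f θ‖)) ?_ (Nat.cast_nonneg _) _ _
      (fun _ _ => norm_nonneg _) (fun θ _ => hnV θ) ?_ h1
    · intro θ hθ
      rw [Finset.mem_filter, Finset.mem_filter] at hθ
      rw [Finset.mem_filter]
      exact ⟨hθ.1.1, hθ.2⟩
    · intro θ hθ
      rw [Finset.mem_filter, Finset.mem_filter] at hθ
      have h4 := hθ.1.2
      rw [not_le] at h4
      exact h4.le
  · refine one_cell_small hX0 (R := R1 P) (F := (R1 P).filter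
      (fun θ => ¬ (Q : ℝ) ^ 2 ≤ X ^ 24 * ‖hh r V f θ‖)) ?_
      ((Finset.filter_subset _ _).trans (Finset.filter_subset _ _)) (Nat.cast_nonneg _) _ _
      (sum_gq_sq hX0 hP hQ q hq2) h2
    intro θ hθ
    rw [Finset.mem_filter, Finset.mem_filter] at hθ
    rw [Finset.mem_filter]
    exact ⟨hθ.1.1, hθ.2⟩

/-- **Soft level frequencies** -/
theorem level_freq {X : ℝ} (hX : 4 * C1 ≤ X) {r : ℕ → ℤ} {P : Finset ℕ} (hP : Rts r P) {Q : ℕ}
    (hQ : ∀ p ∈ P, p ≤ Q) (hQX : 4 * X ^ 26 ≤ Q)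
    (q : ∀ p : ℕ, ZMod p → ℝ) (h0 : ∀ p ∈ P, ∀ c, 0 ≤ q p c)
    (hs : ∀ p ∈ P, ∑ c ∈ range p, q p (c : ZMod p) = 1)
    (hq2 : ∀ p ∈ P, ∑ c ∈ range p, (p : ℝ) * q p (c : ZMod p) ^ 2 ≤ X)
    {W : Finset (ℤ × ℤ)}
    (dens : ∀ M : ℕ, 1 ≤ M → M ≤ 2 * Q ^ 2 → ∀ z,
      ((W.filter (fun w => w - z ∈ box M)).card : ℝ) ≤ X * M)
    (conn : ∀ M : ℕ, M ≤ Q ^ 2 → ∀ w ∈ W,
      (M : ℝ) ≤ X * ((W.filter (fun u => u - w ∈ box M)).card : ℝ))
    (f : ℤ × ℤ → ℂ) (hf1 : ∀ w ∈ W, ‖f w‖ ≤ 1)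
    (hm : ∀ p ∈ P, (W.card : ℝ)
      ≤ X * ‖∑ w ∈ W, f w * ((1 - p * q p ((lf (r p) w : ℤ) : ZMod p) : ℝ) : ℂ)‖)
    (hW : W.Nonempty) :
    X * ((badP r P W f (X ^ 89)).card : ℝ) ≤ Q := by
  classical
  have hC1 := one_le_C1
  have hC0 := one_le_C0
  have hX1020 : 4080 ≤ X := by rw [C1] at hX; linarith
  have hX0 : 0 < X := by linarith
  have hX1 : 1 ≤ X := by linarith
  have hn : (0 : ℝ) < W.card := by exact_mod_cast hW.card_pos
  have hQ1 : 1 ≤ Q := by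
    have h0 : (1 : ℝ) ≤ X ^ 26 := one_le_pow₀ hX1
    have h1 : (1 : ℝ) ≤ Q := by linarith
    exact_mod_cast h1
  have hQ0 : (1 : ℝ) ≤ Q := by exact_mod_cast hQ1
  have hS0 : 0 < Q ^ 2 := by positivity
  have hQS : Q ≤ Q ^ 2 := by nlinarith only [hQ1]
  set S : ℕ := Q ^ 2 with hS
  set G : (Σ _ : ℕ, ℕ) → ℝ := fun θ => ∑ b ∈ W.image (cell S),
    ‖hh r (W.filter (fun w => cell S w = b)) f θ‖ with hG
  have hG0 : ∀ θ, 0 ≤ G θ := fun θ => Finset.sum_nonneg (fun _ _ => norm_nonneg _)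
  set q1 : (Σ _ : ℕ, ℕ) → Prop := fun θ => ¬ (1 : ℝ) ≤ X ^ 43 * gq q θ with hq1
  -- lower bound for each bad prime
  have h1 : ∀ p ∈ badP r P W f (X ^ 89), (W.card : ℝ) ≤ 2 * X *
      ∑ a ∈ (Icc 1 (p - 1)).filter (fun a => q1 ⟨p, a⟩), gq q ⟨p, a⟩ * G ⟨p, a⟩ := by
    intro p hp
    obtain ⟨hpP, hp2⟩ := mem_badP.mp hp
    have h2 := one_prime (X := X) (by linarith) 43 (hP p hpP).1.pos (q p) (h0 p hpP) (hs p hpP)
      (hq2 p hpP) r W f (hm p hpP) (fun a ha => (hp2 a ha).le)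
    refine h2.trans ?_
    refine mul_le_mul_of_nonneg_left ?_ (by positivity)
    refine Finset.sum_le_sum (fun a _ => ?_)
    have h6 : ‖hh r W f ⟨p, a⟩‖ ≤ G ⟨p, a⟩ := by
      rw [hh_cells r W f S]
      exact norm_sum_le _ _
    exact mul_le_mul_of_nonneg_left h6 (norm_nonneg _)
  -- sum over bad primes
  have h2 : ((badP r P W f (X ^ 89)).card : ℝ) * W.card
      ≤ 2 * X * ∑ θ ∈ (R1 P).filter q1, gq q θ * G θ := by
    calc ((badP r P W f (X ^ 89)).card : ℝ) * W.card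
        = ∑ p ∈ badP r P W f (X ^ 89), (W.card : ℝ) := by rw [Finset.sum_const, nsmul_eq_mul]
      _ ≤ ∑ p ∈ badP r P W f (X ^ 89), 2 * X *
          ∑ a ∈ (Icc 1 (p - 1)).filter (fun a => q1 ⟨p, a⟩), gq q ⟨p, a⟩ * G ⟨p, a⟩ :=
          Finset.sum_le_sum h1
      _ ≤ ∑ p ∈ P, 2 * X *
          ∑ a ∈ (Icc 1 (p - 1)).filter (fun a => q1 ⟨p, a⟩), gq q ⟨p, a⟩ * G ⟨p, a⟩ := by
          apply Finset.sum_le_sum_of_subset_of_nonneg
          · intro p hp; exact (mem_badP.mp hp).1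
          · intro p _ _
            refine mul_nonneg (by positivity) (Finset.sum_nonneg (fun a _ => ?_))
            exact mul_nonneg (gq_nonneg q _) (hG0 _)
      _ = _ := by
          rw [← Finset.mul_sum]
          congr 1
          rw [Finset.sum_filter, R1, Finset.sum_sigma]
          refine Finset.sum_congr rfl (fun p _ => ?_)
          rw [Finset.sum_filter]
  -- swap
  have h3 : ∑ θ ∈ (R1 P).filter q1, gq q θ * G θ = ∑ b ∈ W.image (cell S),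
      ∑ θ ∈ (R1 P).filter q1, gq q θ * ‖hh r (W.filter (fun w => cell S w = b)) f θ‖ := by
    rw [Finset.sum_comm]
    refine Finset.sum_congr rfl (fun θ _ => ?_)
    rw [hG, Finset.mul_sum]
  have h4 : ∀ b ∈ W.image (cell S), X ^ 4 *
      ∑ θ ∈ (R1 P).filter q1, gq q θ * ‖hh r (W.filter (fun w => cell S w = b)) f θ‖
      ≤ Q * ((W.filter (fun w => cell S w = b)).card : ℝ) + (Q : ℝ) ^ 3 := by
    intro b _
    have hsub : ∀ (M : ℕ), M ≤ S → ∀ w ∈ W.filter (fun w => cell S w = b), ∀ u : ℤ × ℤ,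
        u - w ∈ box M → u - corner S b ∈ box (2 * S) := by
      intro M hM w hw u hu
      have hb := cell_bounds hS0 (Finset.mem_filter.mp hw).2
      have hM' : (M : ℤ) ≤ S := by exact_mod_cast hM
      rw [mem_box] at hu ⊢
      simp only [corner, Prod.fst_sub, Prod.snd_sub] at hu ⊢
      push_cast
      omega
    have hWb : ∀ w ∈ W.filter (fun w => cell S w = b), w - corner S b ∈ box (2 * S) := by
      intro w hw
      refine hsub 0 (Nat.zero_le _) w hw w ?_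
      rw [sub_self, mem_box]
      simp
    have hUc : ((W.filter (fun w => w - corner S b ∈ box (2 * S))).card : ℝ)
        ≤ 2 * X * (Q : ℝ) ^ 2 := by
      refine (dens (2 * S) (by omega) le_rfl (corner S b)).trans (le_of_eq ?_)
      rw [hS]; push_cast; ring
    refine one_cell hX hP hQ hQX q hq2 (U := W.filter (fun w => w - corner S b ∈ box (2 * S)))
      (n₀ := corner S b) (fun w hw => (Finset.mem_filter.mp hw).2) hUc ?_ ?_ ?_ f
      (fun w hw => hf1 w (Finset.mem_filter.mp hw).1)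
    · refine le_trans ?_ hUc
      have : (W.filter (fun w => cell S w = b)) ⊆
          W.filter (fun w => w - corner S b ∈ box (2 * S)) := by
        intro w hw
        rw [Finset.mem_filter]
        exact ⟨(Finset.mem_filter.mp hw).1, hWb w hw⟩
      exact_mod_cast Finset.card_le_card this
    · intro M hM1 hMQ z
      refine le_trans ?_ (dens M hM1 (by omega) z)
      have : (W.filter (fun w => w - corner S b ∈ box (2 * S))).filter (fun w => w - z ∈ box M)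
          ⊆ W.filter (fun w => w - z ∈ box M) :=
        Finset.filter_subset_filter _ (Finset.filter_subset _ _)
      exact_mod_cast Finset.card_le_card this
    · intro M hMQ w hw
      refine (conn M (hMQ.trans hQS) w (Finset.mem_filter.mp hw).1).trans ?_
      refine mul_le_mul_of_nonneg_left ?_ hX0.le
      have : W.filter (fun u => u - w ∈ box M) ⊆
          (W.filter (fun w => w - corner S b ∈ box (2 * S))).filter (fun u => u - w ∈ box M) := by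
        intro u hu
        rw [Finset.mem_filter] at hu
        rw [Finset.mem_filter, Finset.mem_filter]
        exact ⟨⟨hu.1, hsub M (hMQ.trans hQS) w hw u hu.2⟩, hu.2⟩
      exact_mod_cast Finset.card_le_card this
  have h5 : X ^ 4 * ∑ θ ∈ (R1 P).filter q1, gq q θ * G θ
      ≤ Q * W.card + (Q : ℝ) ^ 3 * ((W.image (cell S)).card : ℝ) := by
    rw [h3, Finset.mul_sum]
    refine (Finset.sum_le_sum h4).trans (le_of_eq ?_)
    rw [Finset.sum_add_distrib, ← Finset.mul_sum, Finset.sum_const, nsmul_eq_mul]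
    have h6 : ∑ b ∈ W.image (cell S), ((W.filter (fun w => cell S w = b)).card : ℝ) = W.card := by
      rw [← Nat.cast_sum, ← Finset.card_eq_sum_card_image]
    rw [h6]
    ring
  have h6 : (Q : ℝ) ^ 3 * ((W.image (cell S)).card : ℝ) ≤ 9 * X * Q * W.card := by
    have h7 := card_cells hX0.le hS0 (conn S le_rfl)
    have h8 : (S : ℝ) = (Q : ℝ) ^ 2 := by rw [hS]; push_cast; rfl
    calc (Q : ℝ) ^ 3 * ((W.image (cell S)).card : ℝ)
        = Q * ((S : ℝ) * ((W.image (cell S)).card : ℝ)) := by rw [h8]; ring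
      _ ≤ Q * (9 * X * W.card) := by gcongr
      _ = _ := by ring
  have h7 : X ^ 4 * ∑ θ ∈ (R1 P).filter q1, gq q θ * G θ ≤ 10 * X * Q * W.card := by
    refine (h5.trans (add_le_add le_rfl h6)).trans ?_
    have h9 : (Q : ℝ) * W.card ≤ X * Q * W.card := by
      have : 1 * ((Q : ℝ) * W.card) ≤ X * (Q * W.card) := by gcongr
      linarith
    linarith
  have h8 : X ^ 4 * (((badP r P W f (X ^ 89)).card : ℝ) * W.card)
      ≤ 20 * X ^ 2 * Q * W.card := by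
    calc X ^ 4 * (((badP r P W f (X ^ 89)).card : ℝ) * W.card)
        ≤ X ^ 4 * (2 * X * ∑ θ ∈ (R1 P).filter q1, gq q θ * G θ) := by gcongr
      _ = 2 * X * (X ^ 4 * ∑ θ ∈ (R1 P).filter q1, gq q θ * G θ) := by ring
      _ ≤ 2 * X * (10 * X * Q * W.card) := by gcongr
      _ = _ := by ring
  have h9 : (X ^ 3 * W.card) * (X * ((badP r P W f (X ^ 89)).card : ℝ))
      ≤ (X ^ 3 * W.card) * Q := by
    calc (X ^ 3 * W.card) * (X * ((badP r P W f (X ^ 89)).card : ℝ))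
        = X ^ 4 * (((badP r P W f (X ^ 89)).card : ℝ) * W.card) := by ring
      _ ≤ 20 * X ^ 2 * Q * W.card := h8
      _ ≤ X * X ^ 2 * Q * W.card := by gcongr; linarith
      _ = _ := by ring
  exact le_of_mul_le_mul_left h9 (by positivity)

/-- a bounded law has small collision probability -/
theorem sq_sum_le {p : ℕ} {q : ZMod p → ℝ} {Λ : ℝ} (h0 : ∀ c, 0 ≤ q c)
    (hs : ∑ c ∈ range p, q (c : ZMod p) = 1) (hb : ∀ c, (p : ℝ) * q c ≤ Λ) :
    ∑ c ∈ range p, (p : ℝ) * q (c : ZMod p) ^ 2 ≤ Λ := by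
  calc ∑ c ∈ range p, (p : ℝ) * q (c : ZMod p) ^ 2
      = ∑ c ∈ range p, ((p : ℝ) * q (c : ZMod p)) * q (c : ZMod p) :=
        Finset.sum_congr rfl (fun c _ => by ring)
    _ ≤ ∑ c ∈ range p, Λ * q (c : ZMod p) :=
        Finset.sum_le_sum (fun c _ => mul_le_mul_of_nonneg_right (hb _) (h0 _))
    _ = Λ := by rw [← Finset.mul_sum, hs, mul_one]

/-- **Soft L1**, explicit form: only `∑ p q² ≤ Λ` is needed, and `P` is any set of primes up to
`Q` with `Q ≤ Λ |P|`. -/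
theorem soft_L1 : ∃ a : ℕ, ∀ (Λ : ℝ) (W : Finset (ℤ × ℤ)) (K Q : ℕ), Cv W K Λ →
    ∀ (r : ℕ → ℤ) (P : Finset ℕ), Rts r P → (∀ p ∈ P, p ≤ Q) → (Q : ℝ) ≤ Λ * P.card →
    ∀ q : (∀ p : ℕ, ZMod p → ℝ), (∀ p ∈ P, ∀ c, 0 ≤ q p c) →
    (∀ p ∈ P, ∑ c ∈ range p, q p (c : ZMod p) = 1) →
    (∀ p ∈ P, ∑ c ∈ range p, (p : ℝ) * q p (c : ZMod p) ^ 2 ≤ Λ) →
    Λ ^ a ≤ Q → 16 * Q ^ 2 ≤ K →
    ∀ f : ℤ × ℤ → ℂ, (∀ w, ‖f w‖ ≤ 1) →
    (∀ p ∈ P, (W.card : ℝ)
      ≤ Λ * ‖∑ w ∈ W, f w * ((1 - p * q p ((lf (r p) w : ℤ) : ZMod p) : ℝ) : ℂ)‖) →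
    ∃ P' ⊆ P, P.card ≤ 2 * P'.card ∧ ∀ p ∈ P', ∃ c ∈ Icc 1 (p - 1),
      (W.card : ℝ) ≤ Λ ^ a * ‖∑ w ∈ W, f w * e2 (fx ⟨p, c⟩) (fy r ⟨p, c⟩) w‖ := by
  classical
  refine ⟨445, fun Λ W K Q hW r P hP hQ hPc q h0 hs hq2 hΛQ hQK f hf1 hm => ?_⟩
  have hΛ := hW.ten
  have hC0 := hW.c0
  have hΛ0 : 0 < Λ := by linarith
  have hΛ1 : 1 ≤ Λ := by linarith
  have hΛ4 : (10 : ℝ) ^ 4 ≤ Λ ^ 4 := pow_le_pow_left₀ (by norm_num) hΛ 4
  have hΛ5 : Λ ≤ Λ ^ 5 := by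
    calc Λ = Λ ^ 1 := (pow_one _).symm
      _ ≤ Λ ^ 5 := pow_le_pow_right₀ hΛ1 (by norm_num)
  have hX : 4 * C1 ≤ Λ ^ 5 := by
    rw [C1]
    calc 4 * (1020 * C0) ≤ 4 * (1020 * Λ) := by gcongr
      _ ≤ Λ ^ 4 * Λ := by nlinarith
      _ = _ := by ring
  have hQX : 4 * (Λ ^ 5) ^ 26 ≤ (Q : ℝ) := by
    refine le_trans ?_ hΛQ
    calc 4 * (Λ ^ 5) ^ 26 ≤ Λ * (Λ ^ 5) ^ 26 := by gcongr; linarith
      _ = Λ ^ 131 := by ring
      _ ≤ Λ ^ 445 := pow_le_pow_right₀ hΛ1 (by norm_num)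
  have hQ1 : (1 : ℝ) ≤ Q := (one_le_pow₀ hΛ1).trans hΛQ
  have hWne : W.Nonempty := by
    rw [Finset.nonempty_iff_ne_empty]
    intro h
    have h1 := hW.size
    rw [h, Finset.card_empty, Nat.cast_zero, mul_zero] at h1
    have h2 : (1 : ℝ) ≤ K := by
      have h3 : ((16 * Q ^ 2 : ℕ) : ℝ) ≤ K := by exact_mod_cast hQK
      push_cast at h3
      nlinarith
    linarith
  have key := level_freq hX hP hQ hQX q h0 hs (fun p hp => (hq2 p hp).trans hΛ5) (by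
      intro M hM1 hM z
      refine (hW.up z M hM1 (by nlinarith)).trans ?_
      gcongr) (by
      intro M hM w hw
      refine (hW.low w hw M (by nlinarith)).trans ?_
      gcongr) f (fun w _ => hf1 w) (fun p hp => (hm p hp).trans
        (mul_le_mul_of_nonneg_right hΛ5 (norm_nonneg _))) hWne
  refine ⟨P \ badP r P W f ((Λ ^ 5) ^ 89), Finset.sdiff_subset, ?_, ?_⟩
  · have hb : badP r P W f ((Λ ^ 5) ^ 89) ⊆ P := fun p hp => (mem_badP.mp hp).1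
    have h1 := Finset.card_sdiff_of_subset hb
    have h2 : 2 * (badP r P W f ((Λ ^ 5) ^ 89)).card ≤ P.card := by
      have h3 : Λ * (2 * ((badP r P W f ((Λ ^ 5) ^ 89)).card : ℝ)) ≤ Λ * P.card := by
        calc Λ * (2 * ((badP r P W f ((Λ ^ 5) ^ 89)).card : ℝ))
            = (Λ * 2) * ((badP r P W f ((Λ ^ 5) ^ 89)).card : ℝ) := by ring
          _ ≤ Λ ^ 5 * ((badP r P W f ((Λ ^ 5) ^ 89)).card : ℝ) := by
              have : Λ * 2 ≤ Λ ^ 5 := by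
                calc Λ * 2 ≤ Λ * Λ ^ 4 := by gcongr; linarith
                  _ = _ := by ring
              gcongr
          _ ≤ Q := key
          _ ≤ _ := hPc
      have h4 := le_of_mul_le_mul_left h3 hΛ0
      exact_mod_cast h4
    omega
  · intro p hp
    rw [Finset.mem_sdiff, mem_badP] at hp
    obtain ⟨hpP, hp2⟩ := hp
    have h3 : ¬ ∀ a ∈ Icc 1 (p - 1), (Λ ^ 5) ^ 89 * ‖hh r W f ⟨p, a⟩‖ < W.card :=
      fun h => hp2 ⟨hpP, h⟩
    push Not at h3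
    obtain ⟨c, hc, h4⟩ := h3
    refine ⟨c, hc, ?_⟩
    rw [hh, hf] at h4
    have e : (Λ ^ 5) ^ 89 = Λ ^ 445 := by ring
    rw [e] at h4
    exact h4

end Vale.Agent.P015.H97
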