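import Vale.Agent.P015.R2.H222.Level3

/-! Soft level frequencies, part 1: the transform of a probability vector on `ZMod p` replaces the
transform of a set of missed classes. -/

namespace Vale.Agent.P015.H97

open Finset Vale.Agent.P001 Vale.Agent.P006.CLS Vale.Agent.P015.H222
open scoped ComplexConjugate Pointwise

/-- transform of a weight on the residue classes -/
noncomputable def tq {p : ℕ} (q : ZMod p → ℝ) (a : ℕ) : ℂ :=
  ∑ c ∈ range p, (q (c : ZMod p) : ℂ) * ee (-((c : ℝ) * ((a : ℝ) / p)))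

theorem tq_zero {p : ℕ} (q : ZMod p → ℝ) (hs : ∑ c ∈ range p, q (c : ZMod p) = 1) :
    tq q 0 = 1 := by
  have h : tq q 0 = ((∑ c ∈ range p, q (c : ZMod p) : ℝ) : ℂ) := by
    simp [tq, ee_zero]
  rw [h, hs, Complex.ofReal_one]

theorem norm_tq_le {p : ℕ} (q : ZMod p → ℝ) (h0 : ∀ c, 0 ≤ q c)
    (hs : ∑ c ∈ range p, q (c : ZMod p) = 1) (a : ℕ) : ‖tq q a‖ ≤ 1 := by
  rw [tq]
  refine (norm_sum_le _ _).trans (le_of_eq ?_)
  rw [← hs]
  refine Finset.sum_congr rfl (fun c _ => ?_)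
  rw [norm_mul, norm_ee, mul_one, Complex.norm_real, Real.norm_of_nonneg (h0 _)]

theorem tq_orth {p : ℕ} (hp : 0 < p) (q : ZMod p → ℝ) (r : ℕ → ℤ) (W : Finset (ℤ × ℤ))
    (f : ℤ × ℤ → ℂ) :
    ∑ a ∈ range p, tq q a * hh r W f ⟨p, a⟩
      = ∑ w ∈ W, f w * ((p * q ((lf (r p) w : ℤ) : ZMod p) : ℝ) : ℂ) := by
  have : NeZero p := ⟨hp.ne'⟩
  have h1 : ∀ a : ℕ, tq q a * hh r W f ⟨p, a⟩
      = ∑ w ∈ W, ∑ c ∈ range p, (f w * (q (c : ZMod p) : ℂ)) *
        ee (((lf (r p) w - ((c : ℕ) : ℤ) : ℤ) : ℝ) * ((a : ℝ) / p)) := by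
    intro a
    rw [hh_eq, tq, Finset.sum_mul_sum, Finset.sum_comm]
    refine Finset.sum_congr rfl (fun w _ => Finset.sum_congr rfl (fun c _ => ?_))
    have e : (((lf (r p) w - ((c : ℕ) : ℤ) : ℤ) : ℝ) * ((a : ℝ) / p))
        = -((c : ℝ) * ((a : ℝ) / p)) + ((lf (r p) w : ℤ) : ℝ) * ((a : ℝ) / p) := by
      push_cast; ring
    rw [e, ee_add]
    ring
  simp_rw [h1]
  rw [Finset.sum_comm]
  refine Finset.sum_congr rfl (fun w _ => ?_)
  rw [Finset.sum_comm]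
  simp_rw [← Finset.mul_sum, orth p hp]
  rw [Finset.sum_eq_single ((lf (r p) w : ℤ) : ZMod p).val]
  · have hd : (p : ℤ) ∣ lf (r p) w - (((lf (r p) w : ℤ) : ZMod p).val : ℤ) := by
      rw [← ZMod.intCast_zmod_eq_zero_iff_dvd]
      push_cast
      rw [ZMod.natCast_zmod_val, sub_self]
    rw [if_pos hd, ZMod.natCast_zmod_val]
    push_cast
    ring
  · intro c hc hne
    rw [if_neg, mul_zero]
    intro hd
    apply hne
    have h2 := (ZMod.intCast_zmod_eq_zero_iff_dvd (lf (r p) w - ((c : ℕ) : ℤ)) p).mpr hd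
    push_cast at h2
    rw [sub_eq_zero.mp h2, ZMod.val_natCast, Nat.mod_eq_of_lt (Finset.mem_range.mp hc)]
  · intro h
    exact absurd (Finset.mem_range.mpr (ZMod.val_lt _)) h

theorem tq_parseval {p : ℕ} (hp : 0 < p) (q : ZMod p → ℝ) :
    ∑ a ∈ range p, ‖tq q a‖ ^ 2 = ∑ c ∈ range p, (p : ℝ) * q (c : ZMod p) ^ 2 := by
  have : NeZero p := ⟨hp.ne'⟩
  have h0 : ((∑ a ∈ range p, ‖tq q a‖ ^ 2 : ℝ) : ℂ)
      = ((∑ c ∈ range p, (p : ℝ) * q (c : ZMod p) ^ 2 : ℝ) : ℂ) := by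
    push_cast
    have h1 : ∀ a : ℕ, ((‖tq q a‖ : ℂ)) ^ 2
        = ∑ c ∈ range p, ∑ c' ∈ range p, ((q (c : ZMod p) : ℂ) * (q (c' : ZMod p) : ℂ)) *
          ee ((((c' : ℤ) - (c : ℤ) : ℤ) : ℝ) * ((a : ℝ) / p)) := by
      intro a
      have := normsq_eq (tq q a)
      push_cast at this
      rw [this, tq, map_sum, Finset.sum_mul_sum]
      refine Finset.sum_congr rfl (fun c _ => Finset.sum_congr rfl (fun c' _ => ?_))
      rw [map_mul, Complex.conj_ofReal, ← ee_neg]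
      have e : ((((c' : ℤ) - (c : ℤ) : ℤ) : ℝ) * ((a : ℝ) / p))
          = -((c : ℝ) * ((a : ℝ) / p)) + -(-((c' : ℝ) * ((a : ℝ) / p))) := by
        push_cast; ring
      rw [e, ee_add]
      ring
    simp_rw [h1]
    rw [Finset.sum_comm]
    refine Finset.sum_congr rfl (fun c hc => ?_)
    rw [Finset.sum_comm]
    simp_rw [← Finset.mul_sum, orth p hp]
    rw [Finset.sum_eq_single c]
    · simp; ring
    · intro c' hc' hne
      rw [if_neg, mul_zero]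
      intro hd
      apply hne
      have h2 : (c' : ℤ) ≡ c [ZMOD p] := by
        refine (Int.modEq_iff_dvd.mpr ?_).symm
        exact hd
      have h3 : c' ≡ c [MOD p] := by exact_mod_cast h2
      have := Nat.ModEq.eq_of_lt_of_lt h3 (Finset.mem_range.mp hc') (Finset.mem_range.mp hc)
      exact this
    · intro h; exact absurd hc h
  exact_mod_cast h0

/-- the nonconstant frequencies carry the pairing of `f` with `1 - p q` -/
theorem tq_orth' {p : ℕ} (hp : 0 < p) (q : ZMod p → ℝ)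
    (hs : ∑ c ∈ range p, q (c : ZMod p) = 1) (r : ℕ → ℤ) (W : Finset (ℤ × ℤ)) (f : ℤ × ℤ → ℂ) :
    ∑ w ∈ W, f w * ((1 - p * q ((lf (r p) w : ℤ) : ZMod p) : ℝ) : ℂ)
      = - ∑ a ∈ Icc 1 (p - 1), tq q a * hh r W f ⟨p, a⟩ := by
  have hrange : range p = insert 0 (Icc 1 (p - 1)) := by
    ext a
    simp only [Finset.mem_range, Finset.mem_insert, Finset.mem_Icc]
    omega
  have ho := tq_orth hp q r W f
  rw [hrange, Finset.sum_insert (by simp)] at ho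
  have hh0 : hh r W f ⟨p, 0⟩ = ∑ w ∈ W, f w := by
    rw [hh_eq]
    refine Finset.sum_congr rfl (fun w _ => ?_)
    simp [ee_zero]
  rw [tq_zero q hs, hh0, one_mul] at ho
  have h1 : ∑ w ∈ W, f w * ((1 - p * q ((lf (r p) w : ℤ) : ZMod p) : ℝ) : ℂ)
      = ∑ w ∈ W, f w - ∑ w ∈ W, f w * ((p * q ((lf (r p) w : ℤ) : ZMod p) : ℝ) : ℂ) := by
    rw [← Finset.sum_sub_distrib]
    refine Finset.sum_congr rfl (fun w _ => ?_)
    push_cast
    ring
  rw [h1, ← ho]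
  ring

/-- For one prime whose coefficients are all small, the frequencies at which `tq` is small carry
the pairing of `f` with `1 - p q`. -/
theorem one_prime {X : ℝ} (hX : 2 ≤ X) (k : ℕ) {p : ℕ} (hp : 0 < p) (q : ZMod p → ℝ)
    (h0 : ∀ c, 0 ≤ q c) (hs : ∑ c ∈ range p, q (c : ZMod p) = 1)
    (hq2 : ∑ c ∈ range p, (p : ℝ) * q (c : ZMod p) ^ 2 ≤ X)
    (r : ℕ → ℤ) (W : Finset (ℤ × ℤ)) (f : ℤ × ℤ → ℂ)
    (hm : (W.card : ℝ)
      ≤ X * ‖∑ w ∈ W, f w * ((1 - p * q ((lf (r p) w : ℤ) : ZMod p) : ℝ) : ℂ)‖)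
    (hsm : ∀ a ∈ Icc 1 (p - 1), X ^ (2 * k + 3) * ‖hh r W f ⟨p, a⟩‖ ≤ W.card) :
    (W.card : ℝ) ≤ 2 * X * ∑ a ∈ (Icc 1 (p - 1)).filter
      (fun a => ¬ (1 : ℝ) ≤ X ^ k * ‖tq q a‖), ‖tq q a‖ * ‖hh r W f ⟨p, a⟩‖ := by
  have hX0 : 0 < X := by linarith
  have hp0 : (0 : ℝ) < p := by exact_mod_cast hp
  set q1 : ℕ → Prop := fun a => (1 : ℝ) ≤ X ^ k * ‖tq q a‖ with hq1
  have h1 : ‖∑ w ∈ W, f w * ((1 - p * q ((lf (r p) w : ℤ) : ZMod p) : ℝ) : ℂ)‖
      ≤ ∑ a ∈ Icc 1 (p - 1), ‖tq q a‖ * ‖hh r W f ⟨p, a⟩‖ := by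
    rw [tq_orth' hp q hs r W f, norm_neg]
    refine (norm_sum_le _ _).trans (le_of_eq ?_)
    exact Finset.sum_congr rfl (fun a _ => norm_mul _ _)
  rw [← Finset.sum_filter_add_sum_filter_not _ q1] at h1
  -- number of large `tq`
  have hcard : (((Icc 1 (p - 1)).filter q1).card : ℝ) ≤ X ^ (2 * k + 1) := by
    calc (((Icc 1 (p - 1)).filter q1).card : ℝ)
        = ∑ a ∈ (Icc 1 (p - 1)).filter q1, (1 : ℝ) := by simp
      _ ≤ ∑ a ∈ (Icc 1 (p - 1)).filter q1, X ^ (2 * k) * ‖tq q a‖ ^ 2 := by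
          refine Finset.sum_le_sum (fun a ha => ?_)
          have h4 := (Finset.mem_filter.mp ha).2
          calc (1 : ℝ) = 1 ^ 2 := (one_pow 2).symm
            _ ≤ (X ^ k * ‖tq q a‖) ^ 2 := pow_le_pow_left₀ zero_le_one h4 2
            _ = _ := by ring
      _ ≤ ∑ a ∈ range p, X ^ (2 * k) * ‖tq q a‖ ^ 2 := by
          apply Finset.sum_le_sum_of_subset_of_nonneg
          · intro a ha
            have h5 := (Finset.mem_filter.mp ha).1
            rw [Finset.mem_Icc] at h5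
            rw [Finset.mem_range]
            omega
          · intro _ _ _; positivity
      _ ≤ X ^ (2 * k) * X := by
          rw [← Finset.mul_sum, tq_parseval hp q]
          gcongr
      _ = _ := by ring
  have h7 : X ^ (2 * k + 3) * ∑ a ∈ (Icc 1 (p - 1)).filter q1, ‖tq q a‖ * ‖hh r W f ⟨p, a⟩‖
      ≤ X ^ (2 * k + 1) * W.card := by
    rw [Finset.mul_sum]
    calc ∑ a ∈ (Icc 1 (p - 1)).filter q1,
          X ^ (2 * k + 3) * (‖tq q a‖ * ‖hh r W f ⟨p, a⟩‖)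
        ≤ ∑ a ∈ (Icc 1 (p - 1)).filter q1, (W.card : ℝ) := by
          refine Finset.sum_le_sum (fun a ha => ?_)
          have h8 := hsm a (Finset.mem_filter.mp ha).1
          calc X ^ (2 * k + 3) * (‖tq q a‖ * ‖hh r W f ⟨p, a⟩‖)
              = ‖tq q a‖ * (X ^ (2 * k + 3) * ‖hh r W f ⟨p, a⟩‖) := by ring
            _ ≤ 1 * W.card := by
              refine mul_le_mul (norm_tq_le q h0 hs a) h8 (by positivity) zero_le_one
            _ = _ := one_mul _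
      _ = (((Icc 1 (p - 1)).filter q1).card : ℝ) * W.card := by
          rw [Finset.sum_const, nsmul_eq_mul]
      _ ≤ _ := by gcongr
  have h9 : X ^ 2 * ∑ a ∈ (Icc 1 (p - 1)).filter q1, ‖tq q a‖ * ‖hh r W f ⟨p, a⟩‖
      ≤ W.card := by
    have h10 : 0 < X ^ (2 * k + 1) := by positivity
    refine le_of_mul_le_mul_left (le_trans (le_of_eq ?_) h7) h10
    ring
  set A := ∑ a ∈ (Icc 1 (p - 1)).filter q1, ‖tq q a‖ * ‖hh r W f ⟨p, a⟩‖ with hA
  set B := ∑ a ∈ (Icc 1 (p - 1)).filter (fun a => ¬ q1 a), ‖tq q a‖ * ‖hh r W f ⟨p, a⟩‖ with hB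
  have hA0 : 0 ≤ A := Finset.sum_nonneg (fun _ _ => by positivity)
  have h11 : (W.card : ℝ) ≤ X * A + X * B := by
    calc (W.card : ℝ) ≤ X * _ := hm
      _ ≤ X * (A + B) := mul_le_mul_of_nonneg_left h1 hX0.le
      _ = _ := by ring
  have h12 : 2 * (X * A) ≤ W.card := by
    refine le_trans ?_ h9
    have : 2 * X ≤ X ^ 2 := by nlinarith
    calc 2 * (X * A) = (2 * X) * A := by ring
      _ ≤ _ := by gcongr
  linarith

end Vale.Agent.P015.H97
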